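import Vale.Agent.P282.Bd3.B1

/-!
# P299, model of the open variety: the dual basis of `1, y, y², …` (port of a part of
`P282/Bd3/B3.lean`, so that the rest of that file is not imported)
-/

set_option linter.all false
set_option autoImplicit false

open MeasureTheory Filter Topology
open scoped ENNReal NNReal ComplexConjugate

namespace Vale.Agent.P299.H340.Du

open Vale.Agent.P282.L2 Vale.Agent.P282.L2.Prim

variable {n N : ℕ} {K : Type} [Field K] [Algebra ℂ K] [Algebra (Pol n) K]
  [IsScalarTower ℂ (Pol n) K] [FaithfulSMul (Pol n) K]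
  [Algebra (FractionRing (Pol n)) K] [IsScalarTower (Pol n) (FractionRing (Pol n)) K]
  [FiniteDimensional (FractionRing (Pol n)) K]

/-- The trace to `ℂ(z)`. -/
noncomputable abbrev tr (a : K) : FractionRing (Pol n) := Algebra.trace (FractionRing (Pol n)) K a


variable {E : Prim n K} {S : Sheets n N} {a b : K} {q : (Fin n → ℂ) × ℂ}

section Aux

omit [IsScalarTower ℂ (Pol n) K] [Algebra (FractionRing (Pol n)) K]
  [IsScalarTower (Pol n) (FractionRing (Pol n)) K] [FiniteDimensional (FractionRing (Pol n)) K]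

omit [Algebra ℂ K] [Algebra (Pol n) K] [FaithfulSMul (Pol n) K] [Field K] in
theorem du_card_sheets {z : Fin n → ℂ} (hz : z ∈ S.V) : (S.fib z).card = N := by
  obtain ⟨W, s, -, hzW, -, -, h⟩ := S.loc z hz
  obtain ⟨hinj, hf⟩ := h z hzW
  rw [hf, Finset.card_image_of_injective _ hinj, Finset.card_univ, Fintype.card_fin]

omit [FaithfulSMul (Pol n) K] in
theorem du_nonempty (hS : E.IsSheets S) : ∃ z, z ∈ S.V := by
  by_contra hcon
  push Not at hcon
  refine E.h0 (MvPolynomial.funext fun z => ?_)
  rw [map_zero]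
  by_contra h
  exact hcon z ((hS.1 z).2 h)

theorem du_unram (E : Prim n K) : ∃ f g : Polynomial (Pol n),
    f * Polynomial.derivative (minpoly (Pol n) E.y) =
      Polynomial.C E.h + minpoly (Pol n) E.y * g := by
  obtain ⟨f, hf⟩ := E.unram
  have hinj := FaithfulSMul.algebraMap_injective (Pol n) K
  have h0 : Polynomial.aeval E.y
      (f * Polynomial.derivative (minpoly (Pol n) E.y) - Polynomial.C E.h) = 0 := by
    rw [map_sub, map_mul, hf, Polynomial.aeval_C, sub_self]
  obtain ⟨g, hg⟩ := minpoly.isIntegrallyClosed_dvd E.integral h0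
  exact ⟨f, g, by rw [← hg]; ring⟩

theorem du_sep (hS : E.IsSheets S) {z : Fin n → ℂ} (hz : z ∈ S.V) :
    ((minpoly (Pol n) E.y).map (MvPolynomial.eval z)).Separable := by
  obtain ⟨f, g, hfg⟩ := du_unram E
  have hne : MvPolynomial.eval z E.h ≠ 0 := (hS.1 z).1 hz
  have h1 := congrArg (Polynomial.map (MvPolynomial.eval z)) hfg
  rw [Polynomial.map_mul, Polynomial.map_add, Polynomial.map_mul, Polynomial.map_C,
    ← Polynomial.derivative_map] at h1
  rw [Polynomial.separable_def']
  refine ⟨-(Polynomial.C (MvPolynomial.eval z E.h)⁻¹ * g.map (MvPolynomial.eval z)),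
    Polynomial.C (MvPolynomial.eval z E.h)⁻¹ * f.map (MvPolynomial.eval z), ?_⟩
  rw [mul_assoc, h1]
  have h2 : Polynomial.C (MvPolynomial.eval z E.h)⁻¹ * Polynomial.C (MvPolynomial.eval z E.h)
      = 1 := by
    rw [← Polynomial.C_mul, inv_mul_cancel₀ hne, Polynomial.C_1]
  linear_combination h2

theorem du_card (hS : E.IsSheets S) {z : Fin n → ℂ} (hz : z ∈ S.V) :
    (S.fib z).card = (minpoly (Pol n) E.y).natDegree := by
  classical
  have hm : ((minpoly (Pol n) E.y).map (MvPolynomial.eval z)).Monic :=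
    (minpoly.monic E.integral).map _
  have h1 : S.fib z = ((minpoly (Pol n) E.y).map (MvPolynomial.eval z)).roots.toFinset := by
    ext w
    rw [hS.2 z w, Multiset.mem_toFinset, Polynomial.mem_roots hm.ne_zero, Polynomial.IsRoot.def]
  rw [h1, Multiset.toFinset_card_of_nodup (Polynomial.nodup_roots (du_sep hS hz)),
    ← (IsAlgClosed.splits _).natDegree_eq_card_roots,
    (minpoly.monic E.integral).natDegree_map]

theorem du_N (hS : E.IsSheets S) : N = (minpoly (Pol n) E.y).natDegree := by
  obtain ⟨z, hz⟩ := du_nonempty hS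
  rw [← du_card hS hz, du_card_sheets hz]

end Aux

section Reg

omit [Algebra (FractionRing (Pol n)) K]
  [IsScalarTower (Pol n) (FractionRing (Pol n)) K] [FiniteDimensional (FractionRing (Pol n)) K]

/-- The algebra of the regular elements. -/
def duReg (E : Prim n K) : Subalgebra (Pol n) K where
  carrier := {a | E.IsReg a}
  mul_mem' := fun ha hb => IsReg.mul ha hb
  add_mem' := fun ha hb => IsReg.add ha hb
  algebraMap_mem' := fun f => isReg_alg f

/-- The generator as a regular element. -/
def duY (E : Prim n K) : duReg E := ⟨E.y, isReg_y⟩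

/-- Evaluation as a ring homomorphism. -/
noncomputable def duEv (hS : E.IsSheets S) (hq : q ∈ S.M) : duReg E →+* ℂ where
  toFun := fun a => E.ev (a : K) q
  map_one' := ev_one hS hq
  map_mul' := fun a b => ev_mul hS hq a.2 b.2
  map_zero' := ev_zero hS hq
  map_add' := fun a b => ev_add hS hq a.2 b.2

theorem du_inj (E : Prim n K) : Function.Injective (algebraMap (duReg E) K) :=
  Subtype.val_injective

theorem du_minpoly (E : Prim n K) : minpoly (Pol n) (duY E) = minpoly (Pol n) E.y :=
  (minpoly.algebraMap_eq (A := Pol n) (du_inj E) (duY E)).symm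

theorem du_div (E : Prim n K) : (minpolyDiv (Pol n) (duY E)).map (algebraMap (duReg E) K) =
    minpolyDiv (Pol n) E.y := by
  unfold minpolyDiv
  rw [Polynomial.map_divByMonic _ (Polynomial.monic_X_sub_C _), Polynomial.map_map,
    ← IsScalarTower.algebraMap_eq, du_minpoly, Polynomial.map_sub, Polynomial.map_X,
    Polynomial.map_C]
  rfl

/-- The dual basis. -/
noncomputable def duC (E : Prim n K) (i : ℕ) : K :=
  (minpolyDiv (Pol n) E.y).coeff i /
    Polynomial.aeval E.y (Polynomial.derivative (minpoly (Pol n) E.y))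

theorem du_coeff (E : Prim n K) (i : ℕ) : (minpolyDiv (Pol n) E.y).coeff i =
    (((minpolyDiv (Pol n) (duY E)).coeff i : duReg E) : K) := by
  rw [← du_div, Polynomial.coeff_map]
  rfl

theorem du_reg_coeff (E : Prim n K) (i : ℕ) : E.IsReg ((minpolyDiv (Pol n) E.y).coeff i) := by
  rw [du_coeff]
  exact ((minpolyDiv (Pol n) (duY E)).coeff i).2

theorem du_reg_C (E : Prim n K) (i : ℕ) : E.IsReg (duC E i) := by
  unfold duC
  rw [div_eq_mul_inv]
  exact IsReg.mul (du_reg_coeff E i) isReg_deriv_inv

theorem du_reg_der (E : Prim n K) :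
    E.IsReg (Polynomial.aeval E.y (Polynomial.derivative (minpoly (Pol n) E.y))) :=
  isReg_aeval _

theorem du_ev_C (hS : E.IsSheets S) (hq : q ∈ S.M) (i : ℕ) :
    E.ev (duC E i) q = duEv hS hq ((minpolyDiv (Pol n) (duY E)).coeff i) *
      (E.ev (Polynomial.aeval E.y (Polynomial.derivative (minpoly (Pol n) E.y))) q)⁻¹ := by
  unfold duC
  rw [div_eq_mul_inv, ev_mul hS hq (du_reg_coeff E i) isReg_deriv_inv,
    ev_inv hS hq (du_reg_der E) isReg_deriv_inv, du_coeff]
  rfl

theorem du_eval (hS : E.IsSheets S) {z : Fin n → ℂ} (hz : z ∈ S.V) {w w' : ℂ}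
    (hw : w ∈ S.fib z) (hw' : w' ∈ S.fib z) :
    ∑ i : Fin N, E.ev (duC E i) (z, w') * w ^ (i : ℕ) = if w = w' then 1 else 0 := by
  have hq : ((z, w') : (Fin n → ℂ) × ℂ) ∈ S.M := ⟨hz, hw'⟩
  set σ := duEv hS hq with hσ
  set δ := E.ev (Polynomial.aeval E.y (Polynomial.derivative (minpoly (Pol n) E.y))) (z, w')
    with hδ
  have hδ0 : δ ≠ 0 := ev_ne_zero_of_inv hS hq aeval_derivative_ne_zero (du_reg_der E)
    isReg_deriv_inv
  have hcomp : σ.comp (algebraMap (Pol n) (duReg E)) = MvPolynomial.eval z := by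
    refine RingHom.ext fun f => ?_
    exact ev_alg hS hq f
  have hy : Polynomial.eval₂ (σ.comp (algebraMap (Pol n) (duReg E))) w
      (minpoly (Pol n) (duY E)) = 0 := by
    rw [hcomp, du_minpoly, Polynomial.eval₂_eq_eval_map]
    exact (hS.2 z w).1 hw
  have h1 := eval₂_minpolyDiv_of_eval₂_eq_zero σ hy
  have hσy : σ (duY E) = w' := ev_y hS hq
  have hσd : σ (Polynomial.aeval (duY E) (Polynomial.derivative (minpoly (Pol n) (duY E)))) = δ := by
    rw [du_minpoly]
    have h2 : ((Polynomial.aeval (duY E) (Polynomial.derivative (minpoly (Pol n) E.y)) :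
        duReg E) : K) = Polynomial.aeval E.y (Polynomial.derivative (minpoly (Pol n) E.y)) := by
      exact (Polynomial.aeval_algebraMap_apply K (duY E) _).symm
    show E.ev ((Polynomial.aeval (duY E) (Polynomial.derivative (minpoly (Pol n) E.y)) :
        duReg E) : K) (z, w') = δ
    rw [h2]
  rw [hσy, hσd] at h1
  have hdeg : (minpolyDiv (Pol n) (duY E)).natDegree < N := by
    have hint : IsIntegral (Pol n) (duY E) :=
      (isIntegral_algebraMap_iff (du_inj E)).1 E.integral
    have := natDegree_minpolyDiv_lt hint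
    rwa [du_minpoly, ← du_N hS] at this
  rw [Polynomial.eval₂_eq_sum_range' σ hdeg] at h1
  have h3 : ∑ i : Fin N, E.ev (duC E i) (z, w') * w ^ (i : ℕ) =
      (∑ i ∈ Finset.range N, σ ((minpolyDiv (Pol n) (duY E)).coeff i) * w ^ i) * δ⁻¹ := by
    rw [Finset.sum_mul, Finset.sum_range]
    refine Finset.sum_congr rfl fun i _ => ?_
    rw [du_ev_C hS hq]
    ring
  rw [h3, h1]
  by_cases hww : w = w'
  · rw [if_pos hww.symm, if_pos hww, mul_inv_cancel₀ hδ0]
  · rw [if_neg (fun h => hww h.symm), if_neg hww, zero_mul]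

theorem du_eval' (hS : E.IsSheets S) {z : Fin n → ℂ} (hz : z ∈ S.V) (i j : Fin N) :
    ∑ w ∈ S.fib z, E.ev (duC E i) (z, w) * w ^ (j : ℕ) = if i = j then 1 else 0 := by
  classical
  set A : Matrix (S.fib z) (Fin N) ℂ := Matrix.of fun w i => (w : ℂ) ^ (i : ℕ) with hA
  set B : Matrix (Fin N) (S.fib z) ℂ := Matrix.of fun i w => E.ev (duC E i) (z, w) with hB
  have hcard : Fintype.card (S.fib z) = Fintype.card (Fin N) := by
    rw [Fintype.card_coe, Fintype.card_fin, du_card_sheets hz]
  have hAB : A * B = 1 := by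
    ext w w'
    rw [Matrix.mul_apply, Matrix.one_apply]
    have := du_eval hS hz w.2 w'.2
    simp only [hA, hB, Matrix.of_apply]
    have e1 : (if w = w' then (1 : ℂ) else 0) = if (w : ℂ) = w' then 1 else 0 := by
      by_cases h : w = w'
      · rw [if_pos h, if_pos (congrArg Subtype.val h)]
      · rw [if_neg h, if_neg fun h' => h (Subtype.ext h')]
    rw [e1, ← this]
    exact Finset.sum_congr rfl fun i _ => mul_comm _ _
  have hBA : B * A = 1 := (Matrix.mul_eq_one_comm_of_card_eq _ _ _ hcard).1 hAB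
  have h1 := congrFun (congrFun hBA i) j
  rw [Matrix.mul_apply, Matrix.one_apply] at h1
  rw [← h1, ← Finset.sum_coe_sort]
  rfl

end Reg

section Field

theorem du_int (E : Prim n K) (i : ℕ) : IsIntegral (Pol n) ((minpolyDiv (Pol n) E.y).coeff i) := by
  have h1 := coeff_minpolyDiv_mem_adjoin (R := Pol n) E.y i
  exact (adjoin_le_integralClosure E.integral) h1

theorem du_pb (E : Prim n K) : ∃ pb : PowerBasis (FractionRing (Pol n)) K, pb.gen = E.y := by
  have hint : IsIntegral (FractionRing (Pol n)) E.y := E.integral.tower_top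
  have htop : Algebra.adjoin (FractionRing (Pol n)) {E.y} = ⊤ := by
    rw [eq_top_iff]
    intro a _
    obtain ⟨f, c, hc, h⟩ := E.gen a
    have hc' : algebraMap (Pol n) K c ≠ 0 := by
      rw [Ne, FaithfulSMul.algebraMap_eq_zero_iff]
      exact hc
    have h1 : a = (algebraMap (Pol n) (FractionRing (Pol n)) c)⁻¹ •
        Polynomial.aeval E.y (f.map (algebraMap (Pol n) (FractionRing (Pol n)))) := by
      rw [Polynomial.aeval_map_algebraMap, ← h, Algebra.smul_def, map_inv₀,
        ← IsScalarTower.algebraMap_apply, inv_mul_cancel_left₀ hc']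
    rw [h1]
    exact Subalgebra.smul_mem _ (Polynomial.aeval_mem_adjoin_singleton _ _) _
  refine ⟨(Algebra.adjoin.powerBasis' hint).map
    ((Subalgebra.equivOfEq _ _ htop).trans Subalgebra.topEquiv), ?_⟩
  simp

end Field

theorem card_eq (hS : E.IsSheets S) : N = (minpoly (Pol n) E.y).natDegree := du_N hS

/-- The dual basis of `1, y, …` (Euler). -/
theorem exists_dual_basis (hS : E.IsSheets S) : ∃ c : Fin N → K, (∀ i, E.IsReg (c i)) ∧
    (∀ i, IsIntegral (Pol n)
      (Polynomial.aeval E.y (Polynomial.derivative (minpoly (Pol n) E.y)) * c i)) ∧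
    (∀ a : K, a = ∑ i : Fin N, algebraMap (FractionRing (Pol n)) K (tr (n := n) (a * E.y ^ (i : ℕ))) *
      c i) ∧
    (∀ i j : Fin N, tr (n := n) (c i * E.y ^ (j : ℕ)) = if i = j then 1 else 0) ∧
    (∀ z ∈ S.V, ∀ w ∈ S.fib z, ∀ w' ∈ S.fib z,
      ∑ i : Fin N, E.ev (c i) (z, w') * w ^ (i : ℕ) = if w = w' then 1 else 0) ∧
    ∀ z ∈ S.V, ∀ i j : Fin N,
      ∑ w ∈ S.fib z, E.ev (c i) (z, w) * w ^ (j : ℕ) = if i = j then 1 else 0 := by
  classical
  obtain ⟨pb, hpb⟩ := du_pb E
  have hN : N = pb.dim := by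
    rw [du_N hS, ← pb.natDegree_minpoly, hpb,
      minpoly.isIntegrallyClosed_eq_field_fractions' (FractionRing (Pol n)) E.integral,
      (minpoly.monic E.integral).natDegree_map]
  have hC : ∀ i : Fin pb.dim, pb.basis.traceDual i = duC E i := by
    intro i
    rw [Module.Basis.traceDual_powerBasis_eq, hpb]
    unfold duC
    rw [minpolyDiv_eq_of_isIntegrallyClosed (FractionRing (Pol n)) E.integral,
      minpoly.isIntegrallyClosed_eq_field_fractions' (FractionRing (Pol n)) E.integral,
      Polynomial.derivative_map, Polynomial.aeval_map_algebraMap]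
  refine ⟨fun i => duC E i, fun i => du_reg_C E i, fun i => ?_, fun a => ?_, fun i j => ?_,
    fun z hz w hw w' hw' => du_eval hS hz hw hw', fun z hz i j => du_eval' hS hz i j⟩
  · have : Polynomial.aeval E.y (Polynomial.derivative (minpoly (Pol n) E.y)) * duC E i =
        (minpolyDiv (Pol n) E.y).coeff i := by
      unfold duC
      rw [mul_div_cancel₀ _ aeval_derivative_ne_zero]
    rw [this]
    exact du_int E i
  · subst hN
    have h1 := pb.basis.traceDual.sum_repr a
    conv_lhs => rw [← h1]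
    refine Finset.sum_congr rfl fun i _ => ?_
    rw [Module.Basis.traceDual_repr_apply, hC, Algebra.smul_def, Algebra.traceForm_apply,
      pb.coe_basis, hpb]
  · subst hN
    have h1 := Module.Basis.trace_traceDual_mul pb.basis i j
    rw [hC, pb.coe_basis, hpb] at h1
    refine Eq.trans h1 ?_
    by_cases h : i = j
    · rw [if_pos h.symm, if_pos h]
    · rw [if_neg fun h' => h h'.symm, if_neg h]


end Vale.Agent.P299.H340.Du
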